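import Vale.Agent.P156.H904.D3
import Vale.Agent.P156.H801.Mat

/-!
# P156, block SEL: selection of typical sequences
-/

open Filter Topology Finset

namespace Vale.Agent.P156.H690

open Vale.Agent.P156

noncomputable section

/-- The property `Q` fails with probability tending to `0`. -/
def Typical (d : ℕ) (Q : ∀ n, SimpleGraph (Fin n) → Prop) : Prop :=
  Tendsto (fun n => prob (regularGraphs n d) (fun G => ¬ Q n G)) (admissible d) (𝓝 0)

theorem typical_true (d : ℕ) : Typical d (fun _ _ => True) := by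
  unfold Typical
  have : ∀ n, prob (regularGraphs n d) (fun _ => ¬ True) = 0 := by
    intro n
    unfold prob avg
    simp
  simp only [this]
  exact tendsto_const_nhds

theorem Typical.and {d : ℕ} {Q R : ∀ n, SimpleGraph (Fin n) → Prop} (hQ : Typical d Q)
    (hR : Typical d R) : Typical d (fun n G => Q n G ∧ R n G) := by
  have h := hQ.add hR
  rw [add_zero] at h
  refine squeeze_zero (fun n => H490.prob_nonneg _ _) (fun n => ?_) h
  refine le_trans (H490.prob_mono (fun G _ hG => ?_)) (H490.prob_or_le _ _ _)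
  exact not_and_or.mp hG

theorem typical_finset {d : ℕ} {ι : Type*} (s : Finset ι) {Q : ι → ∀ n, SimpleGraph (Fin n) → Prop}
    (hQ : ∀ i ∈ s, Typical d (Q i)) : Typical d (fun n G => ∀ i ∈ s, Q i n G) := by
  classical
  induction s using Finset.induction_on with
  | empty =>
    have h := typical_true d
    simpa using h
  | insert a s ha ih =>
    have h := (hQ a (mem_insert_self a s)).and (ih fun i hi => hQ i (mem_insert_of_mem hi))
    simpa only [forall_mem_insert] using h

theorem Typical.of_avg {d : ℕ} {Φ : ∀ n, SimpleGraph (Fin n) → ℝ} (h0 : ∀ n G, 0 ≤ Φ n G)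
    (h : Tendsto (fun n => avg (regularGraphs n d) (Φ n)) (admissible d) (𝓝 0)) {c : ℝ}
    (hc : 0 < c) : Typical d (fun n G => Φ n G ≤ c) := by
  have h1 := h.div_const c
  rw [zero_div] at h1
  refine squeeze_zero (fun _ => H490.prob_nonneg _ _) (fun n => ?_) h1
  refine le_trans (H490.prob_mono (Q := fun G => c ≤ Φ n G) (fun G _ hG => ?_))
    (H490.prob_le_avg hc fun G _ => h0 n G)
  exact (not_le.mp hG).le

theorem Typical.mono {d : ℕ} {Q R : ∀ n, SimpleGraph (Fin n) → Prop} (hQ : Typical d Q)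
    (h : ∀ n, ∀ G, Q n G → R n G) : Typical d R :=
  squeeze_zero (fun _ => H490.prob_nonneg _ _)
    (fun n => H490.prob_mono fun G _ hG hQG => hG (h n G hQG)) hQ

/-- **Diagonal selection.** -/
theorem select {d : ℕ} {ι : Type*} [Countable ι] {Q : ι → ∀ n, SimpleGraph (Fin n) → Prop}
    (hQ : ∀ i, Typical d (Q i)) (Bad : ℕ → ∀ n, SimpleGraph (Fin n) → Prop) {ε : ℝ} (hε : 0 < ε)
    (h : ∀ j, ∃ᶠ n in admissible d, ε < prob (regularGraphs n d) (Bad j n)) :
    ∃ (n : ℕ → ℕ) (G : ∀ j, SimpleGraph (Fin (n j))),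
      (∀ j, G j ∈ regularGraphs (n j) d) ∧ (∀ j, 0 < n j) ∧ Tendsto n atTop atTop ∧
      (∀ j, Bad j (n j) (G j)) ∧ ∀ i, ∀ᶠ j in atTop, Q i (n j) (G j) := by
  classical
  obtain ⟨e, he⟩ := exists_injective_nat ι
  have hfin : ∀ j : ℕ, {i : ι | e i ≤ j}.Finite := fun j =>
    (Set.finite_Iic j).preimage he.injOn
  have key : ∀ j : ℕ, ∃ n : ℕ, j < n ∧ ∃ G ∈ regularGraphs n d, Bad j n G ∧
      ∀ i, e i ≤ j → Q i n G := by
    intro j
    have h1 : Typical d (fun n G => ∀ i ∈ (hfin j).toFinset, Q i n G) :=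
      typical_finset _ fun i _ => hQ i
    have h2 : ∀ᶠ n in admissible d, prob (regularGraphs n d)
        (fun G => ¬ ∀ i ∈ (hfin j).toFinset, Q i n G) < ε := h1.eventually (gt_mem_nhds hε)
    have h3 : ∀ᶠ n in admissible d, j < n := by
      unfold admissible
      exact Filter.Eventually.filter_mono inf_le_left (eventually_gt_atTop j)
    obtain ⟨n, hn1, hn2, hn3⟩ := ((h j).and_eventually (h2.and h3)).exists
    refine ⟨n, hn3, ?_⟩
    by_contra hcon
    push Not at hcon
    have h4 : prob (regularGraphs n d) (Bad j n) ≤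
        prob (regularGraphs n d) (fun G => ¬ ∀ i ∈ (hfin j).toFinset, Q i n G) := by
      refine H490.prob_mono fun G hG hB => ?_
      obtain ⟨i, hi, hi'⟩ := hcon G hG hB
      intro hall
      exact hi' (hall i (by simpa using hi))
    linarith
  choose n hn G hG hB hQ' using key
  refine ⟨n, G, hG, fun j => by have := hn j; omega, ?_, hB, fun i => ?_⟩
  · exact tendsto_atTop_mono (fun j => (hn j).le) tendsto_id
  · filter_upwards [eventually_ge_atTop (e i)] with j hj
    exact hQ' j i hj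

theorem starsF_eq {n : ℕ} (d : ℕ) (G : SimpleGraph (Fin n)) :
    H814.starsF d G = H490.starsOf d G := rfl

/-- Average over one star. -/
theorem avg_WW_one {n d : ℕ} (F : SimpleGraph (Fin n) → Fin n × (Fin d → Fin n) → ℝ) :
    avg (WW n d 1) (fun ω => F ω.1 (ω.2.1 0, ω.2.2 0)) =
      avg (regularGraphs n d) (fun G => avg (H814.starsF d G) (F G)) := by
  rw [H490.avg_WW]
  refine H490.avg_congr fun G _ => ?_
  rw [starsF_eq]
  exact H904.avg_pi_one (d := d) G (F G)

theorem tendsto_cov {d : ℕ} (hFix : SpecFix d) {E : ℝ}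
    (hE : |E| < 2 * Real.sqrt ((d : ℝ) - 1)) {η : ℝ} (hη : 0 < η) {m : ℂ}
    (hm : IsTreeStieltjes d ((E : ℂ) + η * Complex.I) m) (x y : Option (Fin d)) :
    Tendsto (fun n => avg (regularGraphs n d) (fun G => avg (H814.starsF d G) fun p =>
      |(resD (adj G) ∅ ((E : ℂ) + η * Complex.I) (H814.nd p x) (H814.nd p y)).im -
        (H814.Kz d ((E : ℂ) + η * Complex.I) m x y).im|)) (admissible d) (𝓝 0) := by
  rw [Metric.tendsto_nhds]
  intro ε hε
  set κ : ℝ := (H814.Kz d ((E : ℂ) + η * Complex.I) m x y).im with hκ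
  set M : ℝ := max 1 (1 / η) + |κ| with hM
  have hM0 : 0 ≤ M := by positivity
  set ε' := ε / (2 * (1 + M)) with hε'
  have hε'pos : 0 < ε' := by positivity
  filter_upwards [hFix E η hE hη m hm 1 ε' hε'pos] with n hn
  rw [Real.dist_eq, sub_zero, abs_of_nonneg (H490.avg_nonneg fun G _ =>
    H490.avg_nonneg fun p _ => abs_nonneg _)]
  rw [← avg_WW_one (fun G p =>
    |(resD (adj G) ∅ ((E : ℂ) + η * Complex.I) (H814.nd p x) (H814.nd p y)).im - κ|)]
  have h3 := H904.avg_le_of_prob (WW n d 1)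
    (f := fun ω => |(resD (adj ω.1) ∅ ((E : ℂ) + η * Complex.I)
      (H814.nd (ω.2.1 0, ω.2.2 0) x) (H814.nd (ω.2.1 0, ω.2.2 0) y)).im - κ|)
    (M := M) (ε := ε') hM0 hε'pos.le _ ?_ ?_ hn
  · refine lt_of_le_of_lt h3 ?_
    have h4 : ε' + M * ε' = ε / 2 := by
      rw [hε']
      field_simp
    rw [h4]
    linarith
  · intro ω _
    refine (abs_sub _ _).trans ?_
    refine add_le_add ?_ le_rfl
    exact (Complex.abs_im_le_norm _).trans
      (H801.norm_resD_le (adj_isHermitian ω.1) ∅ E hη _ _)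
  · intro ω _ hP
    push Not at hP
    have h5 := hP (0, x) (0, y)
    simp only [if_true] at h5
    rw [hκ, ← Complex.sub_im]
    refine (Complex.abs_im_le_norm _).trans ?_
    exact h5

theorem zl_eq (lam : ℝ) (l : ℕ) :
    H814.zl lam l = (lam : ℂ) + ((1 / ((l : ℝ) + 1) : ℝ) : ℂ) * Complex.I := rfl

theorem stieltjes_unique {d : ℕ} (hd : 3 ≤ d) {lam : ℝ} {l : ℕ} {m m' : ℂ}
    (h : IsTreeStieltjes d (H814.zl lam l) m) (h' : IsTreeStieltjes d (H814.zl lam l) m') :
    m = m' := by
  have hd' : (0 : ℝ) < (d : ℝ) - 1 := by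
    have : (3 : ℝ) ≤ d := by exact_mod_cast hd
    linarith
  have hz : 0 < (H814.zl lam l).im := by
    unfold H814.zl
    simp only [Complex.add_im, Complex.ofReal_im, Complex.mul_im, Complex.ofReal_re,
      Complex.I_im, Complex.I_re, mul_one, mul_zero, zero_add, add_zero]
    positivity
  have hq : ∀ w : ℂ, IsTreeStieltjes d (H814.zl lam l) w →
      (((d : ℝ) - 1 : ℝ) : ℂ) * w ^ 2 + H814.zl lam l * w + 1 = 0 := by
    intro w hw
    push_cast
    exact hw.1
  exact H904.root_unique hd' (hq m h) (hq m' h') hz h.2 h'.2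

theorem typical_cnt (d k : ℕ) (hd : 0 < d) (m : ℕ) :
    ∃ K : ℕ, Typical d (fun n G =>
      ∑ c : Fin n → (Fin k → Fin (2 * m ^ 2 + 1)), Real.exp (-(n * Phi G d c)) ≤
        ((n : ℝ) + 1) ^ K) := by
  obtain ⟨K, n0, hK⟩ := sum_regular_exp_le (Fin k → Fin (2 * m ^ 2 + 1)) d hd
  refine ⟨K + 1, ?_⟩
  have h0 : Tendsto (fun n : ℕ => 1 / ((n : ℝ) + 1)) (admissible d) (𝓝 0) := by
    unfold admissible
    exact tendsto_one_div_add_atTop_nhds_zero_nat.mono_left inf_le_left
  refine squeeze_zero' (Eventually.of_forall fun n => H490.prob_nonneg _ _) ?_ h0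
  have h1 : ∀ᶠ n in admissible d, n0 ≤ n ∧ Even (n * d) := by
    unfold admissible
    refine (Filter.Eventually.filter_mono inf_le_left (eventually_ge_atTop n0)).and ?_
    refine Filter.Eventually.filter_mono inf_le_right ?_
    rw [eventually_principal]
    exact fun n hn => hn.2
  filter_upwards [h1] with n hn
  have hpos : (0 : ℝ) < ((n : ℝ) + 1) ^ (K + 1) := by positivity
  have hnn : ∀ G ∈ regularGraphs n d, (0 : ℝ) ≤
      ∑ c : Fin n → (Fin k → Fin (2 * m ^ 2 + 1)), Real.exp (-(n * Phi G d c)) :=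
    fun G _ => sum_nonneg fun c _ => (Real.exp_pos _).le
  refine le_trans (H490.prob_mono (Q := fun G => ((n : ℝ) + 1) ^ (K + 1) ≤
    ∑ c : Fin n → (Fin k → Fin (2 * m ^ 2 + 1)), Real.exp (-(n * Phi G d c)))
    fun G _ hG => (not_le.mp hG).le) ?_
  refine le_trans (H490.prob_le_avg hpos hnn) ?_
  have h2 : avg (regularGraphs n d) (fun G =>
      ∑ c : Fin n → (Fin k → Fin (2 * m ^ 2 + 1)), Real.exp (-(n * Phi G d c))) ≤
      ((n : ℝ) + 1) ^ K := by
    unfold avg
    rcases Nat.eq_zero_or_pos (regularGraphs n d).card with h | h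
    · rw [h]
      simp only [Nat.cast_zero, div_zero]
      positivity
    · rw [div_le_iff₀ (by exact_mod_cast h)]
      exact (hK n hn.1 hn.2).trans (le_of_eq (mul_comm _ _))
  rw [div_le_div_iff₀ hpos (by positivity), one_mul, pow_succ]
  exact mul_le_mul_of_nonneg_right h2 (by positivity)

/-- **Block SEL.** -/
theorem typSeq_select {d : ℕ} (hFix : SpecFix d) (hd : 3 ≤ d) {lam : ℝ}
    (hlam : |lam| < 2 * Real.sqrt ((d : ℝ) - 1)) (k : ℕ)
    (Bad : ℕ → ∀ n, SimpleGraph (Fin n) → Prop) {ε : ℝ} (hε : 0 < ε)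
    (h : ∀ j, ∃ᶠ n in admissible d, ε < prob (regularGraphs n d) (Bad j n)) :
    ∃ (n : ℕ → ℕ) (G : ∀ j, SimpleGraph (Fin (n j))), H814.TypSeq d k lam n G ∧
      ∀ j, Bad j (n j) (G j) := by
  classical
  choose K hK using fun m => typical_cnt d k (by omega) m
  let ι := ℕ ⊕ (((ℕ × ℕ) × (Option (Fin d) × Option (Fin d))) ⊕ (ℕ × ℕ))
  let Q : ι → ∀ n, SimpleGraph (Fin n) → Prop := fun i n G =>
    match i with
    | .inl m => ∑ c : Fin n → (Fin k → Fin (2 * m ^ 2 + 1)), Real.exp (-(n * Phi G d c)) ≤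
        ((n : ℝ) + 1) ^ K m
    | .inr (.inl ((l, r), (x, y))) => ∀ m, IsTreeStieltjes d (H814.zl lam l) m →
        avg (H814.starsF d G) (fun p =>
          |(resD (adj G) ∅ (H814.zl lam l) (H814.nd p x) (H814.nd p y)).im -
            (H814.Kz d (H814.zl lam l) m x y).im|) ≤ 1 / ((r : ℝ) + 1)
    | .inr (.inr (l, r)) => ∀ m, IsTreeStieltjes d (H814.zl lam l) m →
        |Real.log ‖(cutMat (adj G) ∅ (H814.zl lam l)).det‖ / n - H814.Um d m| ≤
          1 / ((r : ℝ) + 1)
  have hQ : ∀ i, Typical d (Q i) := by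
    rintro (m | ⟨⟨l, r⟩, x, y⟩ | ⟨l, r⟩)
    · exact hK m
    · by_cases hex : ∃ m, IsTreeStieltjes d (H814.zl lam l) m
      · obtain ⟨m, hm⟩ := hex
        have h1 := Typical.of_avg (d := d) (c := 1 / ((r : ℝ) + 1))
          (Φ := fun n G => avg (H814.starsF d G) (fun p =>
          |(resD (adj G) ∅ (H814.zl lam l) (H814.nd p x) (H814.nd p y)).im -
            (H814.Kz d (H814.zl lam l) m x y).im|))
          (fun n G => H490.avg_nonneg fun p _ => abs_nonneg _)
          (tendsto_cov hFix hlam (η := 1 / ((l : ℝ) + 1)) (by positivity) hm x y)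
          (by positivity)
        refine h1.mono fun n G hG m' hm' => ?_
        rw [stieltjes_unique hd hm' hm]
        exact hG
      · refine (typical_true d).mono fun n G _ m hm => ?_
        exact absurd ⟨m, hm⟩ hex
    · by_cases hex : ∃ m, IsTreeStieltjes d (H814.zl lam l) m
      · obtain ⟨m, hm⟩ := hex
        have h1 := Typical.of_avg (d := d) (c := 1 / ((r : ℝ) + 1))
          (Φ := fun n G => |Real.log ‖(cutMat (adj G) ∅ (H814.zl lam l)).det‖ / n -
            H814.Um d m|)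
          (fun n G => abs_nonneg _)
          (H904.logdet_main hd hFix hlam (δ := 1 / ((l : ℝ) + 1)) (by positivity) hm)
          (by positivity)
        refine h1.mono fun n G hG m' hm' => ?_
        rw [stieltjes_unique hd hm' hm]
        exact hG
      · refine (typical_true d).mono fun n G _ m hm => ?_
        exact absurd ⟨m, hm⟩ hex
  obtain ⟨n, G, hreg, hpos, hlim, hBad, hall⟩ := select (ι := ι) hQ Bad hε h
  refine ⟨n, G, ⟨hreg, hpos, hlim, fun m => ⟨K m, hall (.inl m)⟩, ?_, ?_⟩, hBad⟩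
  · intro l m hm x y
    rw [Metric.tendsto_nhds]
    intro δ hδ
    obtain ⟨r, hr⟩ := exists_nat_one_div_lt hδ
    filter_upwards [hall (.inr (.inl ((l, r), (x, y))))] with j hj
    rw [Real.dist_eq, sub_zero, abs_of_nonneg (H490.avg_nonneg fun p _ => abs_nonneg _)]
    exact lt_of_le_of_lt (hj m hm) hr
  · intro l m hm
    rw [Metric.tendsto_nhds]
    intro δ hδ
    obtain ⟨r, hr⟩ := exists_nat_one_div_lt hδ
    filter_upwards [hall (.inr (.inr (l, r)))] with j hj
    rw [Real.dist_eq]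
    exact lt_of_le_of_lt (hj m hm) hr

end

end Vale.Agent.P156.H690
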