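import Vale.Agent.P156.H690.Sym
import Vale.Agent.P156.H849.StarDefs

/-!
# P156, block D1: counting coloured regular graphs of a given type

`starLaw G d c`, `edgeLaw G d c` : the star law and the edge law of the colouring `c`;
`Phi G d c = H(star law) - (d/2) H(edge law)`.

Main results: `sum_regular_exp_le` (the mean over the `d`-regular graphs on `Fin n` of
`∑ c, exp (-(n Phi G d c))` is polynomially bounded), `ent_le` (Gibbs), `card_le` (counting form)
and `colourings_le` (Markov form).
-/

open Finset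

namespace Vale.Agent.P156.H690

open Vale.Agent.P156 Vale.Agent.P156.H849

set_option linter.unusedSectionVars false

section Def

variable {V : Type*} [Fintype V] {C : Type*}

open Classical in
/-- The star law of a colouring. -/
noncomputable def starLaw (G : SimpleGraph V) (d : ℕ) (c : V → C) (y : St d C) : ℝ :=
  (∑ v, ∑ o ∈ ords G d v, if ((c v, fun i => c (o i)) : St d C) = y then (1 : ℝ) else 0) /
    (Fintype.card V * d.factorial)

open Classical in
/-- The edge law of a colouring. -/
noncomputable def edgeLaw (G : SimpleGraph V) (d : ℕ) (c : V → C) (e : C × C) : ℝ :=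
  ((univ.filter fun p : V × V => G.Adj p.1 p.2 ∧ (c p.1, c p.2) = e).card : ℝ) /
    (Fintype.card V * d)

/-- The entropy functional. -/
noncomputable def Phi [Fintype C] (G : SimpleGraph V) (d : ℕ) (c : V → C) : ℝ :=
  ent (starLaw G d c) - (d : ℝ) / 2 * ent (edgeLaw G d c)

end Def

section Graph

variable {n d : ℕ} {C : Type*} [Fintype C] [DecidableEq C]

/-- The word of stars of a matching and a colouring. -/
def word (f : Equiv.Perm (HE n d)) (c : Fin n → C) : Fin n → St d C :=
  fun v => (c v, fun k => c (f (v, k)).1)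

theorem ords_toGraph {f : Equiv.Perm (HE n d)} (hf : IsMatching f) (hs : IsSimple f)
    (v : Fin n) :
    ords (toGraph f) d v =
      univ.image (fun σ : Equiv.Perm (Fin d) => fun k => (f (v, σ k)).1) := by
  classical
  ext o
  unfold ords
  simp only [mem_filter, mem_univ, true_and, mem_image]
  constructor
  · rintro ⟨ho, hadj⟩
    have h1 : ∀ i, ∃ k : Fin d, (f (v, k)).1 = o i := fun i => (toGraph_adj hf hs).mp (hadj i)
    choose k hk using h1
    have hinj : Function.Injective k := by
      intro i j hij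
      apply ho
      rw [← hk i, ← hk j, hij]
    refine ⟨Equiv.ofBijective k (Finite.injective_iff_bijective.mp hinj), ?_⟩
    funext i
    exact hk i
  · rintro ⟨σ, rfl⟩
    refine ⟨fun i j hij => ?_, fun i => (toGraph_adj hf hs).mpr ⟨σ i, rfl⟩⟩
    exact σ.injective (hs.2 v _ _ hij)

theorem starLaw_toGraph {f : Equiv.Perm (HE n d)} (hf : IsMatching f) (hs : IsSimple f)
    (c : Fin n → C) : starLaw (toGraph f) d c = symLaw (word f c) := by
  classical
  funext y
  unfold starLaw symLaw
  rw [Fintype.card_fin]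
  congr 1
  refine sum_congr rfl fun v _ => ?_
  rw [ords_toGraph hf hs, sum_image]
  · refine sum_congr rfl fun σ _ => ?_
    by_cases h : reord σ (word f c v) = y
    · rw [if_pos h]
      exact if_pos h
    · rw [if_neg h]
      exact if_neg h
  · intro σ _ τ _ h
    refine Equiv.ext fun k => ?_
    exact hs.2 v _ _ (congrFun h k)

theorem edgeLaw_toGraph {f : Equiv.Perm (HE n d)} (hf : IsMatching f) (hs : IsSimple f)
    (c : Fin n → C) : edgeLaw (toGraph f) d c = emp (lab (word f c)) := by
  classical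
  funext e
  unfold edgeLaw emp
  have hcard : Fintype.card (HE n d) = n * d := by simp [HE]
  rw [Fintype.card_fin, hcard]
  push_cast
  congr 2
  unfold cnt
  refine (card_bij (fun h _ => (h.1, (f h).1)) ?_ ?_ ?_).symm
  · intro h hh
    simp only [mem_filter, mem_univ, true_and] at hh ⊢
    exact ⟨(toGraph_adj hf hs).mpr ⟨h.2, rfl⟩, hh⟩
  · rintro ⟨v, k⟩ _ ⟨w, l⟩ _ h
    rw [Prod.mk.injEq] at h
    obtain ⟨h1, h2⟩ := h
    have h1' : v = w := h1
    subst h1'
    rw [hs.2 v k l h2]
  · rintro ⟨v, w⟩ h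
    simp only [mem_filter, mem_univ, true_and] at h
    obtain ⟨hadj, he⟩ := h
    obtain ⟨k, hk⟩ := (toGraph_adj hf hs).mp hadj
    have hk' : (f (v, k)).1 = w := hk
    subst hk'
    exact ⟨(v, k), by rw [mem_filter]; exact ⟨mem_univ _, he⟩, rfl⟩

theorem Phi_toGraph {f : Equiv.Perm (HE n d)} (hf : IsMatching f) (hs : IsSimple f)
    (c : Fin n → C) : Phi (toGraph f) d c = PhiW (word f c) := by
  unfold Phi PhiW
  rw [starLaw_toGraph hf hs, edgeLaw_toGraph hf hs]

theorem compat_word {f : Equiv.Perm (HE n d)} (hf : IsMatching f) (c : Fin n → C) :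
    Compat f (lab (word f c)) := by
  intro h
  unfold lab word
  have h1 : (f ((f h).1, (f h).2)) = h := hf.1 h
  simp only [h1, Prod.swap_prod_mk, Prod.mk.eta]

theorem word_injective (f : Equiv.Perm (HE n d)) :
    Function.Injective (word (C := C) f) := by
  intro c c' h
  funext v
  exact congrArg Prod.fst (congrFun h v)

/-- **Counting of compatible pairs**, partition function form. -/
theorem sum_compat_word_exp_le (hn : 0 < n) (hd : 0 < d) {m : ℕ} (hm : n * d = 2 * m) :
    ∑ X : Fin n → St d C,
      (((matchings (HE n d)).filter fun f => Compat f (lab X)).card : ℝ) *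
        Real.exp (-(n * PhiW X)) ≤
    ((matchings (HE n d)).card : ℝ) * ((n * d : ℝ) + 1) ^ Fintype.card (C × C) *
      ((n : ℝ) + 1) ^ Fintype.card (St d C) := by
  classical
  have : Nonempty (HE n d) := ⟨(⟨0, hn⟩, ⟨0, hd⟩)⟩
  have hcard : Fintype.card (HE n d) = n * d := by simp [HE]
  set A : ℝ := ((matchings (HE n d)).card : ℝ) * ((n * d : ℝ) + 1) ^ Fintype.card (C × C) with hA
  have hA0 : 0 ≤ A := by positivity
  have h1 : ∀ X ∈ (univ : Finset (Fin n → St d C)),
      (((matchings (HE n d)).filter fun f => Compat f (lab X)).card : ℝ) *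
        Real.exp (-(n * PhiW X)) ≤ A * Real.exp (-(n * ent (symLaw X))) := by
    intro X _
    have h2 := card_compat_le (m := m) (by rw [hcard, hm]) (lab X)
    rw [hcard] at h2
    push_cast at h2
    refine (mul_le_mul_of_nonneg_right h2 (Real.exp_pos _).le).trans (le_of_eq ?_)
    rw [mul_assoc A, wt_eq_exp, ← Real.exp_half, hcard, ← Real.exp_add]
    congr 2
    unfold PhiW
    push_cast
    ring
  refine (sum_le_sum h1).trans ?_
  rw [← mul_sum]
  exact mul_le_mul_of_nonneg_left (sum_exp_symLaw_le hn) hA0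

theorem sum_simple_exp_le (hn : 0 < n) (hd : 0 < d) (he : Even (n * d)) :
    ∑ f ∈ (matchings (HE n d)).filter IsSimple, ∑ c : Fin n → C,
      Real.exp (-(n * Phi (toGraph f) d c)) ≤
    ((matchings (HE n d)).card : ℝ) * ((n * d : ℝ) + 1) ^ Fintype.card (C × C) *
      ((n : ℝ) + 1) ^ Fintype.card (St d C) := by
  classical
  obtain ⟨m, hm⟩ := he
  refine le_trans ?_ (sum_compat_word_exp_le hn hd (m := m) (by omega))
  calc ∑ f ∈ (matchings (HE n d)).filter IsSimple, ∑ c : Fin n → C,
        Real.exp (-(n * Phi (toGraph f) d c))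
      ≤ ∑ f ∈ (matchings (HE n d)).filter IsSimple,
          ∑ X ∈ univ.filter (fun X : Fin n → St d C => Compat f (lab X)),
            Real.exp (-(n * PhiW X)) := by
        refine sum_le_sum fun f hf => ?_
        rw [mem_filter, mem_matchings] at hf
        have h1 : ∑ c : Fin n → C, Real.exp (-(n * Phi (toGraph f) d c)) =
            ∑ X ∈ (univ : Finset (Fin n → C)).image (word f), Real.exp (-(n * PhiW X)) := by
          rw [sum_image (fun c _ c' _ h => word_injective f h)]
          exact sum_congr rfl fun c _ => by rw [Phi_toGraph hf.1 hf.2]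
        rw [h1]
        refine sum_le_sum_of_subset_of_nonneg ?_ fun X _ _ => (Real.exp_pos _).le
        intro X hX
        rw [mem_image] at hX
        obtain ⟨c, _, rfl⟩ := hX
        rw [mem_filter]
        exact ⟨mem_univ _, compat_word hf.1 c⟩
    _ ≤ ∑ f ∈ matchings (HE n d),
          ∑ X ∈ univ.filter (fun X : Fin n → St d C => Compat f (lab X)),
            Real.exp (-(n * PhiW X)) :=
        sum_le_sum_of_subset_of_nonneg (filter_subset _ _) fun f _ _ =>
          sum_nonneg fun X _ => (Real.exp_pos _).le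
    _ = ∑ X : Fin n → St d C,
          (((matchings (HE n d)).filter fun f => Compat f (lab X)).card : ℝ) *
            Real.exp (-(n * PhiW X)) := by
        simp_rw [sum_filter]
        rw [sum_comm]
        refine sum_congr rfl fun X _ => ?_
        rw [← sum_filter, sum_const, nsmul_eq_mul]

/-- Sums over regular graphs and over simple matchings. -/
theorem sum_regular_mul (n d : ℕ) (F : SimpleGraph (Fin n) → ℝ) :
    (∑ G ∈ regularGraphs n d, F G) * (d.factorial : ℝ) ^ n =
      ∑ f ∈ (matchings (HE n d)).filter IsSimple, F (toGraph f) := by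
  classical
  have hmaps : ∀ f ∈ (matchings (HE n d)).filter IsSimple, toGraph f ∈ regularGraphs n d := by
    intro f hf
    rw [mem_filter, mem_matchings] at hf
    unfold regularGraphs
    rw [mem_filter]
    exact ⟨mem_univ _, toGraph_regular hf.1 hf.2⟩
  rw [← sum_fiberwise_of_maps_to hmaps, sum_mul]
  refine sum_congr rfl fun G hG => ?_
  have hreg : G.IsRegularOfDegree d := by
    unfold regularGraphs at hG
    exact (mem_filter.mp hG).2
  have h1 : ∀ f ∈ ((matchings (HE n d)).filter IsSimple).filter (fun f => toGraph f = G),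
      F (toGraph f) = F G := fun f hf => by rw [(mem_filter.mp hf).2]
  rw [sum_congr rfl h1, sum_const, nsmul_eq_mul, mul_comm, filter_filter,
    graph_count n d G hreg]
  push_cast
  rfl

variable (C) in
/-- **Block D1**, partition function form: the mean over the `d`-regular graphs of
`∑ c, exp (-(n Phi G d c))` is at most polynomial in `n`. -/
theorem sum_regular_exp_le (d : ℕ) (hd : 0 < d) :
    ∃ K n0 : ℕ, ∀ n ≥ n0, Even (n * d) →
      ∑ G ∈ regularGraphs n d, ∑ c : Fin n → C, Real.exp (-(n * Phi G d c)) ≤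
        ((regularGraphs n d).card : ℝ) * ((n : ℝ) + 1) ^ K := by
  classical
  obtain ⟨c0, hc0, n1, hn1⟩ := simple_lower d
  obtain ⟨n2, hn2⟩ := exists_nat_gt (1 / c0)
  refine ⟨2 * Fintype.card (C × C) + Fintype.card (St d C) + 1, max (max n1 n2) (max d 1),
    fun n hn he => ?_⟩
  have hn1' : n1 ≤ n := le_trans (le_trans (le_max_left _ _) (le_max_left _ _)) hn
  have hn2' : n2 ≤ n := le_trans (le_trans (le_max_right _ _) (le_max_left _ _)) hn
  have hdn : d ≤ n := le_trans (le_trans (le_max_left _ _) (le_max_right _ _)) hn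
  have hn0 : 0 < n := le_trans (le_trans (le_max_right _ _) (le_max_right _ _)) hn
  have hD : (0 : ℝ) < (d.factorial : ℝ) ^ n := by
    have : (0 : ℝ) < d.factorial := by exact_mod_cast Nat.factorial_pos d
    positivity
  have h1 := sum_simple_exp_le (C := C) hn0 hd he
  have h2 := sum_regular_mul n d (fun G => ∑ c : Fin n → C, Real.exp (-(n * Phi G d c)))
  have h3 := sum_regular_mul n d (fun _ => 1)
  simp only [sum_const, nsmul_eq_mul, mul_one] at h3
  have h4 := hn1 n hn1' he
  rw [← h3] at h4
  set M : ℝ := ((matchings (HE n d)).card : ℝ) with hM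
  set R : ℝ := ((regularGraphs n d).card : ℝ) with hR
  have hM0 : 0 ≤ M := Nat.cast_nonneg _
  have hR0 : 0 ≤ R := Nat.cast_nonneg _
  have hinv : 1 / c0 ≤ (n : ℝ) + 1 := by
    have : (n2 : ℝ) ≤ n := by exact_mod_cast hn2'
    linarith
  have h5 : M ≤ R * (d.factorial : ℝ) ^ n * ((n : ℝ) + 1) := by
    have h6 : M ≤ R * (d.factorial : ℝ) ^ n * (1 / c0) := by
      rw [mul_one_div, le_div_iff₀ hc0, mul_comm M]
      exact h4
    exact h6.trans (mul_le_mul_of_nonneg_left hinv (by positivity))
  have h7 : (n * d : ℝ) + 1 ≤ ((n : ℝ) + 1) ^ 2 := by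
    have : (d : ℝ) ≤ n := by exact_mod_cast hdn
    have hn' : (0 : ℝ) ≤ n := Nat.cast_nonneg n
    nlinarith
  have h8 : (∑ G ∈ regularGraphs n d, ∑ c : Fin n → C, Real.exp (-(n * Phi G d c))) *
      (d.factorial : ℝ) ^ n ≤ (R * ((n : ℝ) + 1) ^
        (2 * Fintype.card (C × C) + Fintype.card (St d C) + 1)) * (d.factorial : ℝ) ^ n := by
    rw [h2]
    refine h1.trans ?_
    calc M * ((n * d : ℝ) + 1) ^ Fintype.card (C × C) * ((n : ℝ) + 1) ^ Fintype.card (St d C)
        ≤ (R * (d.factorial : ℝ) ^ n * ((n : ℝ) + 1)) *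
            (((n : ℝ) + 1) ^ 2) ^ Fintype.card (C × C) *
            ((n : ℝ) + 1) ^ Fintype.card (St d C) := by gcongr
      _ = _ := by rw [← pow_mul]; ring
  exact le_of_mul_le_mul_right h8 hD

/-- **Gibbs' inequality**. -/
theorem ent_le {Y : Type*} [Fintype Y] [Nonempty Y] (μ : Y → ℝ) (h0 : ∀ y, 0 ≤ μ y)
    (h1 : ∑ y, μ y = 1) (F : Y → ℝ) :
    ent μ ≤ ∑ y, μ y * F y + Real.log (∑ y, Real.exp (-F y)) := by
  set Z := ∑ y, Real.exp (-F y) with hZ
  have hZ0 : 0 < Z := sum_pos (fun y _ => Real.exp_pos _) univ_nonempty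
  have h2 : ∀ y, Real.negMulLog (μ y) - μ y * F y - μ y * Real.log Z ≤
      Real.exp (-F y) / Z - μ y := by
    intro y
    rcases (h0 y).eq_or_lt with h | h
    · rw [← h]
      simp only [Real.negMulLog_zero, zero_mul, sub_zero]
      positivity
    · have h3 : Real.log (Real.exp (-F y) / (Z * μ y)) ≤ Real.exp (-F y) / (Z * μ y) - 1 :=
        Real.log_le_sub_one_of_pos (by positivity)
      rw [Real.log_div (Real.exp_pos _).ne' (by positivity), Real.log_exp,
        Real.log_mul hZ0.ne' h.ne'] at h3
      have h4 := mul_le_mul_of_nonneg_left h3 h.le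
      have h5 : μ y * (Real.exp (-F y) / (Z * μ y) - 1) = Real.exp (-F y) / Z - μ y := by
        field_simp
      rw [h5] at h4
      rw [Real.negMulLog]
      linarith
  have h6 := sum_le_sum fun y (_ : y ∈ univ) => h2 y
  rw [sum_sub_distrib, sum_sub_distrib, sum_sub_distrib, ← sum_div, ← hZ, div_self hZ0.ne', h1,
    ← sum_mul, h1] at h6
  unfold ent
  linarith

variable (C) in
/-- **Block D1**, counting form. -/
theorem card_le (d : ℕ) (hd : 0 < d) :
    ∃ K n0 : ℕ, ∀ n ≥ n0, Even (n * d) → ∀ h : ℝ,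
      (((regularGraphs n d ×ˢ (univ : Finset (Fin n → C))).filter
        fun p => Phi p.1 d p.2 ≤ h).card : ℝ) ≤
        ((regularGraphs n d).card : ℝ) * ((n : ℝ) + 1) ^ K * Real.exp (n * h) := by
  classical
  obtain ⟨K, n0, hK⟩ := sum_regular_exp_le C d hd
  refine ⟨K, n0, fun n hn he h => ?_⟩
  have h1 := hK n hn he
  rw [← sum_product'] at h1
  have h2 : (((regularGraphs n d ×ˢ (univ : Finset (Fin n → C))).filter
        fun p => Phi p.1 d p.2 ≤ h).card : ℝ) * Real.exp (-(n * h)) ≤
      ((regularGraphs n d).card : ℝ) * ((n : ℝ) + 1) ^ K := by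
    refine le_trans ?_ h1
    rw [← nsmul_eq_mul, ← sum_const]
    refine le_trans (sum_le_sum fun p hp => ?_)
      (sum_le_sum_of_subset_of_nonneg (filter_subset _ _) fun p _ _ => (Real.exp_pos _).le)
    rw [mem_filter] at hp
    refine Real.exp_le_exp.mpr (neg_le_neg ?_)
    exact mul_le_mul_of_nonneg_left hp.2 (Nat.cast_nonneg n)
  rw [Real.exp_neg, ← div_eq_mul_inv, div_le_iff₀ (Real.exp_pos _)] at h2
  exact h2

variable (C) in
/-- **Block D1**, Markov form: if a proportion at least `κ` of the `d`-regular graphs have at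
least `exp (n s)` colourings with `Phi ≤ B`, then `s ≤ B + o(1)`. -/
theorem colourings_le (d : ℕ) (hd : 0 < d) :
    ∃ K n0 : ℕ, ∀ n ≥ n0, Even (n * d) → ∀ κ s B : ℝ, ∀ A : Finset (SimpleGraph (Fin n)),
      A ⊆ regularGraphs n d → 0 < A.card → κ * (regularGraphs n d).card ≤ A.card →
      (∀ G ∈ A, Real.exp (n * s) ≤
        ((univ.filter fun c : Fin n → C => Phi G d c ≤ B).card : ℝ)) →
      κ * Real.exp (n * s) ≤ ((n : ℝ) + 1) ^ K * Real.exp (n * B) := by
  classical
  obtain ⟨K, n0, hK⟩ := card_le C d hd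
  refine ⟨K, n0, fun n hn he κ s B A hA hpos hκ hs => ?_⟩
  have h1 := hK n hn he B
  have h2 : (A.card : ℝ) * Real.exp (n * s) ≤
      (((regularGraphs n d ×ˢ (univ : Finset (Fin n → C))).filter
        fun p => Phi p.1 d p.2 ≤ B).card : ℝ) := by
    rw [card_filter, Nat.cast_sum, sum_product, ← nsmul_eq_mul, ← sum_const]
    refine le_trans (sum_le_sum fun G hG => (hs G hG).trans (le_of_eq ?_))
      (sum_le_sum_of_subset_of_nonneg hA fun G _ _ => sum_nonneg fun c _ => Nat.cast_nonneg _)
    rw [card_filter, Nat.cast_sum]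
  have hR : (0 : ℝ) < (regularGraphs n d).card := by
    exact_mod_cast lt_of_lt_of_le hpos (card_le_card hA)
  have h3 : κ * Real.exp (n * s) * (regularGraphs n d).card ≤
      (((n : ℝ) + 1) ^ K * Real.exp (n * B)) * (regularGraphs n d).card := by
    calc κ * Real.exp (n * s) * (regularGraphs n d).card
        = κ * (regularGraphs n d).card * Real.exp (n * s) := by ring
      _ ≤ A.card * Real.exp (n * s) := mul_le_mul_of_nonneg_right hκ (Real.exp_pos _).le
      _ ≤ _ := h2.trans (h1.trans (le_of_eq (by ring)))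
  exact le_of_mul_le_mul_right h3 hR

end Graph

end Vale.Agent.P156.H690
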