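import Vale.Agent.P156.Bdl.B1
import Mathlib.Analysis.SpecialFunctions.Log.NegMulLog

/-!
# P156, block D1: matchings compatible with labels
-/

open Finset

namespace Vale.Agent.P156.H690

open Vale.Agent.P156

set_option linter.unusedSectionVars false

/-- Shannon entropy. -/
noncomputable def ent {X : Type*} [Fintype X] (p : X → ℝ) : ℝ := ∑ x, Real.negMulLog (p x)

section Words

variable {P S : Type*} [Fintype P] [DecidableEq P] [Fintype S] [DecidableEq S]

theorem wt_eq_exp (s : P → S) : wt s = Real.exp (-(Fintype.card P * ent (emp s))) := by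
  rw [wt_eq]
  rcases isEmpty_or_nonempty P with hI | hI
  · have h0 : ∀ a, cnt s a = 0 := fun a => by
      simp [cnt]
    simp [h0]
  have hN : (0 : ℝ) < Fintype.card P := by exact_mod_cast Fintype.card_pos
  have h1 : ∀ a, emp s a ^ cnt s a = Real.exp (-(Fintype.card P * Real.negMulLog (emp s a))) := by
    intro a
    rcases (cnt s a).eq_zero_or_pos with h | h
    · have : emp s a = 0 := by simp [emp, h]
      simp [h, this]
    · have h2 : 0 < emp s a := by unfold emp; positivity
      rw [← Real.exp_log (pow_pos h2 _), Real.log_pow]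
      congr 1
      rw [Real.negMulLog]
      have h3 : (cnt s a : ℝ) = Fintype.card P * emp s a := by
        unfold emp; field_simp
      rw [h3]; ring
  rw [prod_congr rfl fun a _ => h1 a, ← Real.exp_sum, ent]
  congr 1
  rw [mul_sum, sum_neg_distrib]

end Words

section Compat

variable {H C : Type*} [Fintype H] [DecidableEq H] [Fintype C] [DecidableEq C]

/-- The matching `f` joins half-edges with label `(a, b)` to half-edges with label `(b, a)`. -/
def Compat (f : Equiv.Perm H) (L : H → C × C) : Prop := ∀ h, L (f h) = (L h).swap

instance (f : Equiv.Perm H) (L : H → C × C) : Decidable (Compat f L) := by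
  unfold Compat; infer_instance

theorem emp_swap {f : Equiv.Perm H} {L : H → C × C} (h : Compat f L) (x : C × C) :
    emp L x.swap = emp L x := by
  unfold emp
  congr 2
  unfold cnt
  refine card_bij (fun i _ => f i) ?_ ?_ ?_
  · intro i hi
    rw [mem_filter] at hi ⊢
    refine ⟨mem_univ _, ?_⟩
    rw [h i, hi.2, Prod.swap_swap]
  · intro i _ j _ hij
    exact f.injective hij
  · intro j hj
    rw [mem_filter] at hj
    refine ⟨f.symm j, ?_, by simp⟩
    rw [mem_filter]
    refine ⟨mem_univ _, ?_⟩
    have h1 := h (f.symm j)
    rw [Equiv.apply_symm_apply, hj.2] at h1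
    rw [h1]
    simp

/-- The weights of the words compatible with a matching add up to at most one. -/
theorem sum_compat_le {m : ℕ} (hc : Fintype.card H = 2 * m) {f : Equiv.Perm H}
    (hf : IsMatching f) (q : C × C → ℝ) (hq : ∀ x, 0 ≤ q x) (hs : ∀ x, q x.swap = q x)
    (h1 : ∑ x, q x = 1) :
    ∑ L ∈ univ.filter (fun L : H → C × C => Compat f L), ∏ h, Real.sqrt (q (L h)) ≤ 1 := by
  classical
  obtain ⟨e, he⟩ := exists_equiv_of_matching (I := Fin m) hf (by rw [hc, Fintype.card_fin])
  have h2 : ∀ L ∈ univ.filter (fun L : H → C × C => Compat f L),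
      ∏ h, Real.sqrt (q (L h)) = ∏ i : Fin m, q (L (e (i, false))) := by
    intro L hL
    rw [mem_filter] at hL
    rw [← e.prod_comp, Fintype.prod_prod_type]
    refine prod_congr rfl fun i _ => ?_
    rw [Fintype.prod_bool]
    have h3 : L (e (i, true)) = (L (e (i, false))).swap := by
      have h4 := he (i, false)
      rw [flipP_apply] at h4
      have h5 := hL.2 (e (i, false))
      rw [h4] at h5
      exact h5
    rw [h3, hs]
    exact Real.mul_self_sqrt (hq _)
  rw [sum_congr rfl h2]
  have hinj : Set.InjOn (fun (L : H → C × C) (i : Fin m) => L (e (i, false)))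
      (univ.filter (fun L : H → C × C => Compat f L) : Finset (H → C × C)) := by
    intro L hL L' hL' hLL
    rw [mem_coe, mem_filter] at hL hL'
    funext h
    obtain ⟨⟨i, b⟩, rfl⟩ := e.surjective h
    have h6 : L (e (i, false)) = L' (e (i, false)) := congrFun hLL i
    cases b
    · exact h6
    · have h4 := he (i, false)
      rw [flipP_apply] at h4
      have h5 := hL.2 (e (i, false))
      have h5' := hL'.2 (e (i, false))
      rw [h4] at h5 h5'
      exact h5.trans (by rw [h6]; exact h5'.symm)
  have h7 : ∑ L ∈ univ.filter (fun L : H → C × C => Compat f L),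
      ∏ i : Fin m, q (L (e (i, false))) =
      ∑ M ∈ (univ.filter (fun L : H → C × C => Compat f L)).image
        (fun L i => L (e (i, false))), ∏ i : Fin m, q (M i) :=
    (sum_image (f := fun M : Fin m → C × C => ∏ i : Fin m, q (M i)) hinj).symm
  rw [h7]
  calc _ ≤ ∑ M : Fin m → C × C, ∏ i : Fin m, q (M i) :=
        sum_le_sum_of_subset_of_nonneg (subset_univ _) fun M _ _ =>
          prod_nonneg fun i _ => hq _
    _ = 1 := by
        rw [← Fintype.prod_sum (fun (_ : Fin m) (a : C × C) => q a)]
        simp [h1]

/-- The number of matchings compatible with `L` depends only on the type of `L`. -/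
theorem card_compat_eq {L L' : H → C × C} (h : L' ∈ typeClass L) :
    ((matchings H).filter fun f => Compat f L').card =
      ((matchings H).filter fun f => Compat f L).card := by
  classical
  obtain ⟨τ, rfl⟩ : ∃ τ : Equiv.Perm H, L' = L ∘ τ := by
    have := exists_perm_of_cnt (x := L') (s := L) (by
      simpa [typeClass] using h)
    obtain ⟨τ, hτ⟩ := this
    exact ⟨τ, by first | exact hτ | exact hτ.symm⟩
  refine card_bij (fun f _ => τ * f * τ⁻¹) ?_ ?_ ?_
  · intro f hf
    rw [mem_filter, mem_matchings] at hf ⊢
    refine ⟨⟨fun x => ?_, fun x hx => ?_⟩, fun x => ?_⟩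
    · simp [hf.1.1]
    · refine hf.1.2 (τ⁻¹ x) ?_
      have := congrArg (fun y => τ⁻¹ y) hx
      simpa using this
    · have := hf.2 (τ⁻¹ x)
      simpa using this
  · intro f _ f' _ hff
    exact mul_left_cancel (mul_right_cancel hff)
  · intro f hf
    rw [mem_filter, mem_matchings] at hf
    refine ⟨τ⁻¹ * f * τ, ?_, by group⟩
    rw [mem_filter, mem_matchings]
    refine ⟨⟨fun x => ?_, fun x hx => ?_⟩, fun x => ?_⟩
    · simp [hf.1.1]
    · refine hf.1.2 (τ x) ?_
      have := congrArg τ hx
      simpa using this
    · have := hf.2 (τ x)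
      simpa using this

/-- **Number of matchings compatible with given labels.** -/
theorem card_compat_le [Nonempty H] {m : ℕ} (hc : Fintype.card H = 2 * m) (L : H → C × C) :
    (((matchings H).filter fun f => Compat f L).card : ℝ) ≤
      ((matchings H).card : ℝ) * ((Fintype.card H : ℝ) + 1) ^ Fintype.card (C × C) *
        Real.sqrt (wt L) := by
  classical
  set M : ℝ := (((matchings H).filter fun f => Compat f L).card : ℝ) with hM
  set w := wt L with hw
  have hw0 : 0 < w := wt_pos L
  -- double counting
  have key : ((typeClass L).card : ℝ) * M * Real.sqrt w ≤ (matchings H).card := by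
    have e1 : ((typeClass L).card : ℝ) * M * Real.sqrt w =
        ∑ L' ∈ typeClass L, ∑ f ∈ matchings H, if Compat f L' then Real.sqrt w else 0 := by
      have : ∀ L' ∈ typeClass L, (∑ f ∈ matchings H, if Compat f L' then Real.sqrt w else 0) =
          M * Real.sqrt w := by
        intro L' hL'
        rw [← sum_filter, sum_const, nsmul_eq_mul, card_compat_eq hL']
      rw [sum_congr rfl this, sum_const, nsmul_eq_mul]; ring
    rw [e1, sum_comm]
    have e2 : ∀ f ∈ matchings H,
        (∑ L' ∈ typeClass L, if Compat f L' then Real.sqrt w else 0) ≤ 1 := by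
      intro f hf
      rw [mem_matchings] at hf
      rw [← sum_filter]
      rcases ((typeClass L).filter fun L' => Compat f L').eq_empty_or_nonempty with h | ⟨L0, hL0⟩
      · rw [h, sum_empty]; exact zero_le_one
      · rw [mem_filter] at hL0
        have hemp : emp L0 = emp L := by
          funext a
          have : cnt L0 a = cnt L a := by
            have := hL0.1
            simp only [typeClass, mem_filter, mem_univ, true_and] at this
            exact this a
          unfold emp
          rw [this]
        have hsym : ∀ x, emp L x.swap = emp L x := by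
          rw [← hemp]
          exact emp_swap hL0.2
        have e3 : ∀ L' ∈ (typeClass L).filter (fun L' => Compat f L'),
            Real.sqrt w = ∏ h, Real.sqrt (emp L (L' h)) := by
          intro L' hL'
          rw [mem_filter] at hL'
          rw [hw, ← prod_emp_of_mem hL'.1]
          exact Real.sqrt_prod _ fun i _ => emp_nonneg L _
        rw [sum_congr rfl e3]
        refine le_trans ?_ (sum_compat_le hc hf (emp L) (emp_nonneg L) hsym (sum_emp L))
        refine sum_le_sum_of_subset_of_nonneg ?_ fun L' _ _ =>
          prod_nonneg fun i _ => Real.sqrt_nonneg _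
        intro L' hL'
        rw [mem_filter] at hL' ⊢
        exact ⟨mem_univ _, hL'.2⟩
    calc _ ≤ ∑ f ∈ matchings H, (1 : ℝ) := sum_le_sum e2
      _ = _ := by simp
  have h2 := one_le_card_mul_wt L
  set R : ℝ := ((Fintype.card H : ℝ) + 1) ^ Fintype.card (C × C) with hR
  have hR0 : 0 ≤ R := by positivity
  have hM0 : 0 ≤ M := Nat.cast_nonneg _
  calc M ≤ M * (R * (((typeClass L).card : ℝ) * w)) := le_mul_of_one_le_right hM0 h2
    _ = (((typeClass L).card : ℝ) * M * Real.sqrt w) * R * Real.sqrt w := by
        have : w = Real.sqrt w * Real.sqrt w := (Real.mul_self_sqrt hw0.le).symm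
        nth_rw 1 [this]
        ring
    _ ≤ (matchings H).card * R * Real.sqrt w := by
        gcongr

end Compat

end Vale.Agent.P156.H690
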