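import Vale.Agent.P156.H814.Typ
import Vale.Agent.P156.H490.Avg

/-!
# P156: averages over the stars of a regular graph
-/

open Finset

namespace Vale.Agent.P156.H690

open Vale.Agent.P156 Vale.Agent.P156.H814

noncomputable section

variable {n d : ℕ} {G : SimpleGraph (Fin n)}

theorem mem_starsF {p : Fin n × (Fin d → Fin n)} : p ∈ starsF d G ↔ IsStar G p.1 p.2 :=
  H490.mem_starsOf

theorem starsF_nonempty (hG : G ∈ regularGraphs n d) (hn : 0 < n) : (starsF d G).Nonempty := by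
  have h : (starsF d G).card = n * d.factorial := H490.card_starsOf hG
  rw [← Finset.card_pos, h]
  positivity

theorem avg_nd (hG : G ∈ regularGraphs n d) (x : Option (Fin d)) (g : Fin n → ℝ) :
    avg (starsF d G) (fun p => g (nd p x)) = (∑ v, g v) / n :=
  H490.avg_star_vtx hG g x

theorem sum_perm (σ : Equiv.Perm (Fin d)) (Φ : Fin n × (Fin d → Fin n) → ℝ) :
    ∑ p ∈ starsF d G, Φ (p.1, p.2 ∘ σ) = ∑ p ∈ starsF d G, Φ p := by
  have hstar : ∀ (v : Fin n) (l : Fin d → Fin n) (τ : Equiv.Perm (Fin d)), IsStar G v l →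
      IsStar G v (l ∘ τ) := by
    intro v l τ h
    refine ⟨h.1.comp τ.injective, fun w => (h.2 w).trans ?_⟩
    constructor
    · rintro ⟨k, hk⟩
      exact ⟨τ.symm k, by simpa using hk⟩
    · rintro ⟨k, hk⟩
      exact ⟨τ k, hk⟩
  refine Finset.sum_nbij' (fun p => (p.1, p.2 ∘ σ)) (fun p => (p.1, p.2 ∘ σ.symm)) ?_ ?_ ?_ ?_ ?_
  · intro p hp
    rw [mem_starsF] at hp ⊢
    exact hstar _ _ σ hp
  · intro p hp
    rw [mem_starsF] at hp ⊢
    exact hstar _ _ σ.symm hp
  · intro p _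
    refine Prod.ext rfl ?_
    funext k
    simp
  · intro p _
    refine Prod.ext rfl ?_
    funext k
    simp
  · intro p _
    rfl

theorem avg_perm (σ : Equiv.Perm (Fin d)) (Φ : Fin n × (Fin d → Fin n) → ℝ) :
    avg (starsF d G) (fun p => Φ (p.1, p.2 ∘ σ)) = avg (starsF d G) Φ := by
  unfold avg
  rw [sum_perm]

/-- Sum over the leaves of a star. -/
theorem sum_leaves_adj {p : Fin n × (Fin d → Fin n)} (hp : p ∈ starsF d G) (g : Fin n → ℝ)
    [DecidableRel G.Adj] :
    ∑ i, g (p.2 i) = ∑ w, if G.Adj p.1 w then g w else 0 := by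
  rw [mem_starsF] at hp
  rw [← Finset.sum_filter]
  refine Finset.sum_nbij p.2 ?_ ?_ ?_ ?_
  · intro a _
    rw [mem_filter]
    exact ⟨mem_univ _, (hp.2 (p.2 a)).2 ⟨a, rfl⟩⟩
  · intro a _ b _ hab
    exact hp.1 hab
  · intro w hw
    simp only [Finset.coe_filter, Finset.mem_univ, true_and, Set.mem_ofPred_eq] at hw
    obtain ⟨k, hk⟩ := (hp.2 w).1 hw
    exact ⟨k, by simp, hk⟩
  · intro _ _
    rfl

theorem sum_leaves {p : Fin n × (Fin d → Fin n)} (hp : p ∈ starsF d G) (g : Fin n → ℝ) :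
    ∑ i, g (p.2 i) = ∑ w, adj G p.1 w * g w := by
  classical
  rw [sum_leaves_adj hp]
  refine Finset.sum_congr rfl fun w _ => ?_
  unfold adj
  rw [SimpleGraph.adjMatrix_apply]
  split_ifs <;> simp

theorem sum_edge (hG : G ∈ regularGraphs n d) (i : Fin d) (g : Fin n → Fin n → ℝ)
    [DecidableRel G.Adj] :
    (d : ℝ) * ∑ p ∈ starsF d G, g p.1 (p.2 i) =
      d.factorial * ∑ v, ∑ w, if G.Adj v w then g v w else 0 := by
  have h1 : ∀ j : Fin d, ∑ p ∈ starsF d G, g p.1 (p.2 j) = ∑ p ∈ starsF d G, g p.1 (p.2 i) := by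
    intro j
    have h := sum_perm (G := G) (Equiv.swap i j) (fun p => g p.1 (p.2 i))
    rw [← h]
    refine Finset.sum_congr rfl fun p _ => ?_
    simp
  calc (d : ℝ) * ∑ p ∈ starsF d G, g p.1 (p.2 i)
      = ∑ j : Fin d, ∑ p ∈ starsF d G, g p.1 (p.2 j) := by
        rw [Finset.sum_congr rfl fun j _ => h1 j]
        simp
    _ = ∑ p ∈ starsF d G, ∑ w, if G.Adj p.1 w then g p.1 w else 0 := by
        rw [Finset.sum_comm]
        exact Finset.sum_congr rfl fun p hp => sum_leaves_adj hp (g p.1)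
    _ = d.factorial * ∑ v, ∑ w, if G.Adj v w then g v w else 0 :=
        H490.sum_star_centre hG (fun v => ∑ w, if G.Adj v w then g v w else 0)

theorem avg_swap (hG : G ∈ regularGraphs n d) (i : Fin d) (g : Fin n → Fin n → ℝ) :
    avg (starsF d G) (fun p => g p.1 (p.2 i)) = avg (starsF d G) (fun p => g (p.2 i) p.1) := by
  classical
  unfold avg
  congr 1
  have hd : (0 : ℝ) < d := by exact_mod_cast Fin.pos i
  have h1 := sum_edge hG i g
  have h2 := sum_edge hG i (fun v w => g w v)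
  have h3 : (∑ v, ∑ w, if G.Adj v w then g v w else 0) =
      ∑ v, ∑ w, if G.Adj v w then g w v else 0 := by
    rw [Finset.sum_comm]
    refine Finset.sum_congr rfl fun v _ => Finset.sum_congr rfl fun w _ => ?_
    simp only [G.adj_comm]
  rw [h3, ← h2] at h1
  exact mul_left_cancel₀ hd.ne' h1

end

end Vale.Agent.P156.H690
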