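import Vale.Agent.P156.H690.Match

/-!
# P156, block D1: symmetrized empirical law of a word of stars
-/

open Finset

namespace Vale.Agent.P156.H690

open Vale.Agent.P156

set_option linter.unusedSectionVars false

/-- Star configurations: colour of the centre, colours of the leaves. -/
abbrev St (d : ℕ) (C : Type*) : Type _ := C × (Fin d → C)

/-- Reordering of the leaves. -/
def reord {d : ℕ} {C : Type*} (σ : Equiv.Perm (Fin d)) (x : St d C) : St d C := (x.1, x.2 ∘ σ)

/-- Shannon entropy is at least zero on laws. -/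
theorem ent_nonneg {X : Type*} [Fintype X] {p : X → ℝ} (h0 : ∀ x, 0 ≤ p x) (h1 : ∀ x, p x ≤ 1) :
    0 ≤ ent p := sum_nonneg fun x _ => Real.negMulLog_nonneg (h0 x) (h1 x)

section Sym

variable {n d : ℕ} {C : Type*} [Fintype C] [DecidableEq C]

/-- The law of the star at a uniform place, with uniform order of the leaves. -/
noncomputable def symLaw (X : Fin n → St d C) (y : St d C) : ℝ :=
  (∑ v, ∑ σ : Equiv.Perm (Fin d), if reord σ (X v) = y then (1 : ℝ) else 0) /
    (n * d.factorial)

theorem symLaw_nonneg (X : Fin n → St d C) (y : St d C) : 0 ≤ symLaw X y := by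
  unfold symLaw
  refine div_nonneg (sum_nonneg fun v _ => sum_nonneg fun σ _ => ?_) (by positivity)
  split_ifs <;> norm_num

theorem sum_symLaw_mul (X : Fin n → St d C) (F : St d C → ℝ) :
    ∑ y, symLaw X y * F y =
      (∑ v, ∑ σ : Equiv.Perm (Fin d), F (reord σ (X v))) / (n * d.factorial) := by
  unfold symLaw
  simp_rw [div_mul_eq_mul_div, sum_mul]
  rw [← sum_div, sum_comm]
  congr 1
  refine sum_congr rfl fun v _ => ?_
  rw [sum_comm]
  refine sum_congr rfl fun σ _ => ?_
  simp

theorem sum_symLaw (hn : 0 < n) (X : Fin n → St d C) : ∑ y, symLaw X y = 1 := by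
  have h := sum_symLaw_mul X (fun _ => 1)
  simp only [mul_one] at h
  rw [h]
  simp only [sum_const, card_univ, Fintype.card_fin, Fintype.card_perm, nsmul_eq_mul, mul_one]
  have : (0 : ℝ) < d.factorial := by exact_mod_cast Nat.factorial_pos d
  have : (0 : ℝ) < n := by exact_mod_cast hn
  field_simp

theorem reord_inj (σ : Equiv.Perm (Fin d)) {x y : St d C} (h : reord σ x = reord σ y) :
    x = y := by
  unfold reord at h
  rw [Prod.mk.injEq] at h
  refine Prod.ext h.1 ?_
  exact σ.surjective.injective_comp_right h.2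

theorem reord_reord (σ τ : Equiv.Perm (Fin d)) (x : St d C) :
    reord σ (reord τ x) = reord (τ * σ) x := rfl

theorem symLaw_reord (X : Fin n → St d C) (τ : Equiv.Perm (Fin d)) (y : St d C) :
    symLaw X (reord τ y) = symLaw X y := by
  unfold symLaw
  congr 1
  refine sum_congr rfl fun v _ => ?_
  refine (Fintype.sum_equiv (Equiv.mulRight τ) _ _ fun σ => ?_).symm
  have h : (reord σ (X v) = y) ↔ (reord (σ * τ) (X v) = reord τ y) := by
    rw [← reord_reord τ σ]
    exact ⟨fun h => by rw [h], fun h => reord_inj τ h⟩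
  exact if_congr h rfl rfl

theorem symLaw_pos (X : Fin n → St d C) (v : Fin n) : 0 < symLaw X (X v) := by
  have hn : 0 < n := v.pos
  unfold symLaw
  have h1 : (0 : ℝ) < n * d.factorial := by
    have : (0 : ℝ) < d.factorial := by exact_mod_cast Nat.factorial_pos d
    positivity
  refine div_pos ?_ h1
  have hnn : ∀ w, ∀ σ : Equiv.Perm (Fin d),
      (0 : ℝ) ≤ if reord σ (X w) = X v then (1 : ℝ) else 0 := fun w σ => by
    split_ifs <;> norm_num
  calc (0 : ℝ) < 1 := zero_lt_one
    _ = if reord (1 : Equiv.Perm (Fin d)) (X v) = X v then (1 : ℝ) else 0 := by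
        rw [if_pos]; rfl
    _ ≤ ∑ σ : Equiv.Perm (Fin d), if reord σ (X v) = X v then (1 : ℝ) else 0 :=
        single_le_sum (f := fun σ : Equiv.Perm (Fin d) =>
          if reord σ (X v) = X v then (1 : ℝ) else 0) (fun σ _ => hnn v σ) (mem_univ _)
    _ ≤ _ := single_le_sum (f := fun w => ∑ σ : Equiv.Perm (Fin d),
          if reord σ (X w) = X v then (1 : ℝ) else 0)
          (fun w _ => sum_nonneg fun σ _ => hnn w σ) (mem_univ v)

theorem sum_comp_cnt {P S : Type*} [Fintype P] [DecidableEq P] [Fintype S] [DecidableEq S]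
    (X : P → S) (g : S → ℝ) : ∑ v, g (X v) = ∑ a, (cnt X a : ℝ) * g a := by
  rw [← sum_fiberwise (s := univ) (g := X)]
  refine sum_congr rfl fun a _ => ?_
  rw [cnt, ← nsmul_eq_mul, ← sum_const]
  refine sum_congr rfl fun v hv => ?_
  rw [(mem_filter.mp hv).2]

theorem symLaw_congr {X Y : Fin n → St d C} (h : ∀ a, cnt X a = cnt Y a) :
    symLaw X = symLaw Y := by
  funext y
  unfold symLaw
  rw [sum_comp_cnt X (fun x => ∑ σ : Equiv.Perm (Fin d), if reord σ x = y then (1 : ℝ) else 0),
    sum_comp_cnt Y (fun x => ∑ σ : Equiv.Perm (Fin d), if reord σ x = y then (1 : ℝ) else 0)]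
  simp only [h]

theorem prod_symLaw (X : Fin n → St d C) :
    ∏ v, symLaw X (X v) = Real.exp (-(n * ent (symLaw X))) := by
  rcases Nat.eq_zero_or_pos n with rfl | hn
  · simp
  have hd : (0 : ℝ) < d.factorial := by exact_mod_cast Nat.factorial_pos d
  have hn' : (0 : ℝ) < n := by exact_mod_cast hn
  rw [← Real.exp_log (prod_pos fun v _ => symLaw_pos X v), Real.log_prod
    (fun v _ => (symLaw_pos X v).ne')]
  congr 1
  have h1 : ∑ y, symLaw X y * Real.log (symLaw X y) =
      (∑ v, ∑ σ : Equiv.Perm (Fin d), Real.log (symLaw X (X v))) / (n * d.factorial) := by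
    rw [sum_symLaw_mul X (fun y => Real.log (symLaw X y))]
    simp only [symLaw_reord]
  simp only [sum_const, card_univ, Fintype.card_perm, Fintype.card_fin, nsmul_eq_mul] at h1
  rw [← mul_sum] at h1
  have h2 : ent (symLaw X) = -∑ y, symLaw X y * Real.log (symLaw X y) := by
    unfold ent
    rw [← sum_neg_distrib]
    exact sum_congr rfl fun y _ => by rw [Real.negMulLog]; ring
  rw [h2, h1]
  field_simp

/-- **Type counting for stars.** -/
theorem sum_exp_symLaw_le (hn : 0 < n) :
    ∑ X : Fin n → St d C, Real.exp (-(n * ent (symLaw X))) ≤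
      ((n : ℝ) + 1) ^ Fintype.card (St d C) := by
  classical
  rw [← Finset.sum_fiberwise (s := univ) (g := typ)]
  have h2 : ∀ j : St d C → Fin (Fintype.card (Fin n) + 1),
      ∑ X ∈ univ.filter (fun X : Fin n → St d C => typ X = j),
        Real.exp (-(n * ent (symLaw X))) ≤ 1 := by
    intro j
    rcases (univ.filter (fun X : Fin n → St d C => typ X = j)).eq_empty_or_nonempty with
      h | ⟨x, hx⟩
    · rw [h, sum_empty]; exact zero_le_one
    · rw [mem_filter] at hx
      calc ∑ X ∈ univ.filter (fun X : Fin n → St d C => typ X = j),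
            Real.exp (-(n * ent (symLaw X)))
          = ∑ X ∈ univ.filter (fun X : Fin n → St d C => typ X = j),
              ∏ v, symLaw x (X v) := by
            refine sum_congr rfl fun X hX => ?_
            rw [mem_filter] at hX
            rw [← prod_symLaw, symLaw_congr ((typ_eq_iff X x).mp (hX.2.trans hx.2.symm))]
        _ ≤ ∑ X : Fin n → St d C, ∏ v, symLaw x (X v) :=
            sum_le_sum_of_subset_of_nonneg (subset_univ _) fun X _ _ =>
              prod_nonneg fun v _ => symLaw_nonneg x _
        _ = 1 := by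
            rw [← Fintype.prod_sum (fun (_ : Fin n) (a : St d C) => symLaw x a)]
            simp [sum_symLaw hn]
  calc _ ≤ ∑ _j : St d C → Fin (Fintype.card (Fin n) + 1), (1 : ℝ) :=
        sum_le_sum fun j _ => h2 j
    _ = _ := by
        rw [sum_const, card_univ, Fintype.card_fun, Fintype.card_fin, Fintype.card_fin,
          nsmul_eq_mul, mul_one]
        push_cast
        rfl

/-- The labels of the half-edges of a word of stars. -/
def lab (X : Fin n → St d C) : HE n d → C × C := fun h => ((X h.1).1, (X h.1).2 h.2)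

/-- The entropy functional on words. -/
noncomputable def PhiW (X : Fin n → St d C) : ℝ :=
  ent (symLaw X) - (d : ℝ) / 2 * ent (emp (lab X))

/-- **Counting of compatible pairs.** -/
theorem sum_compat_word_le (hn : 0 < n) (hd : 0 < d) {m : ℕ} (hm : n * d = 2 * m) (h : ℝ) :
    ∑ X ∈ univ.filter (fun X : Fin n → St d C => PhiW X ≤ h),
      (((matchings (HE n d)).filter fun f => Compat f (lab X)).card : ℝ) ≤
    ((matchings (HE n d)).card : ℝ) * ((n * d : ℝ) + 1) ^ Fintype.card (C × C) *
      ((n : ℝ) + 1) ^ Fintype.card (St d C) * Real.exp (n * h) := by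
  classical
  have : Nonempty (HE n d) := ⟨(⟨0, hn⟩, ⟨0, hd⟩)⟩
  have hcard : Fintype.card (HE n d) = n * d := by simp [HE]
  set A : ℝ := ((matchings (HE n d)).card : ℝ) * ((n * d : ℝ) + 1) ^ Fintype.card (C × C) with hA
  have hA0 : 0 ≤ A := by positivity
  have h1 : ∀ X ∈ univ.filter (fun X : Fin n → St d C => PhiW X ≤ h),
      (((matchings (HE n d)).filter fun f => Compat f (lab X)).card : ℝ) ≤
        A * Real.exp (n * h) * Real.exp (-(n * ent (symLaw X))) := by
    intro X hX
    rw [mem_filter] at hX
    have h2 := card_compat_le (m := m) (by rw [hcard, hm]) (lab X)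
    rw [hcard] at h2
    push_cast at h2
    refine h2.trans ?_
    rw [mul_assoc A, ← Real.exp_add]
    refine mul_le_mul_of_nonneg_left ?_ hA0
    rw [wt_eq_exp, ← Real.exp_half, hcard]
    refine Real.exp_le_exp.mpr ?_
    push_cast
    have h3 := hX.2
    unfold PhiW at h3
    have hn' : (0 : ℝ) < n := by exact_mod_cast hn
    nlinarith [mul_le_mul_of_nonneg_left h3 hn'.le]
  refine (sum_le_sum h1).trans ?_
  rw [← mul_sum]
  calc A * Real.exp (n * h) * ∑ X ∈ univ.filter (fun X : Fin n → St d C => PhiW X ≤ h),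
        Real.exp (-(n * ent (symLaw X)))
      ≤ A * Real.exp (n * h) * ((n : ℝ) + 1) ^ Fintype.card (St d C) := by
        refine mul_le_mul_of_nonneg_left ?_ (by positivity)
        refine le_trans ?_ (sum_exp_symLaw_le hn)
        exact sum_le_sum_of_subset_of_nonneg (subset_univ _) fun X _ _ => (Real.exp_pos _).le
    _ = _ := by ring

end Sym

end Vale.Agent.P156.H690
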